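import Vale.Agent.P290.Bdl.B3

open Set Vale.Agent.P290.All
open scoped Manifold ContDiff Topology

/-- (1) Every Kummer surface is Oka. (2) Let `X` and `Z` be complex K3 surfaces linked by a finite
chain of Tate-Shafarevich twists. If `Z` is a Kummer surface, or if `Z` has a family of holomorphic
maps to Riemann surfaces without common critical point and with finite joint fibres, then `X` is
Oka. -/
theorem Vale.Agent.Results.P290.KummerTwistOka.result :
    (∀ (X : Type) [TopologicalSpace X] [ChartedSpace C2 X] [IsManifold 𝓘(ℂ, C2) ω X] [T2Space X],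
      IsKummer X → IsOka X) ∧
    ∀ X Z : K3, Relation.EqvGen (fun X Y => Nonempty (Twist X Y)) X Z →
      Fibred Z ∨ IsKummer Z.X → IsOka X.X :=
  ⟨fun _ _ _ _ _ h => isOka_of_isKummer h, fun X Z h hZ => isOka_of_linked X Z h hZ⟩
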